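import Crest.Agent.X212.Brn93.Defs
import Crest.Agent.X212.Brn93.Cls
import Crest.Agent.X212.Brn93.Typ
import Crest.Agent.X212.Lat93.Root
import Crest.Agent.X212.Num57.Tw
import Crest.Agent.X212.Line51.Exl
import Crest.Agent.X212.Line51.Lit
import Crest.Agent.X212.Cyl58.Tr_Mg
import Crest.Agent.X212.Ms48.Main
import Crest.Agent.X212.Wd38.Ctx
import Crest.Agent.X212.Wd38.Pt

/-!
# X212 / Brn93, part Main (helper93): BR-NV

* `exists_world`, `exists_dif` : the closed manifold of a world;  `ok_rt` : the root word;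
* `nv_gen` : the line of the caps and `Br55.NvStmt`;  `nv_cx` : from `H7.Out`.
-/

set_option autoImplicit false
set_option linter.unusedSectionVars false

open Set Filter Topology Function Matrix
open scoped ContDiff Manifold
open Crest.Agent.R208.F Crest.Agent.X212.Dr59 Crest.Agent.X212.Int54 Crest.Agent.X212.Cyl58
  Crest.Agent.X212.Line51 Crest.Agent.X212.Bb31 Crest.Agent.X212.Lat93 Crest.Agent.X212.Eq82
open Crest.Agent.X212.Sep15 (EE IR CM)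
open Crest.Agent.X212.Orx52 (Pos)

noncomputable section

namespace Crest.Agent.X212.Brn93
open Wd38 Nm96 Br55
open M hiding pm
open Rod53 (uni_s)
open scoped Cap57

variable {Γ : Nm}

section wld

variable {X : Mf 4} {A κ : Type} [Fintype A] [Fintype κ] [DecidableEq (Option κ)] {M : Mark X A κ}

theorem exists_world (hS : M.Spare) : ∃ (W : World M) (B : Bas X univ), Std W B := by
  have := M.cpt
  obtain ⟨C⟩ := caps X A κ M
  obtain ⟨k, r, hr⟩ := Met55.exists_frame (I := X.I) (M := X.M)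
  obtain ⟨W, -, h⟩ := Met55.exw Ms48.ms1 X A κ M C
    ⟨k, fun _ => r, fun _ x _ i => .of_fixed ((hr x).sm i), fun _ x _ => (hr x).sp⟩ hS
  exact ⟨W, _, h⟩

/-- the closed manifold of a world -/
theorem exists_dif (W : World M) : ∃ f : X.M ≃ₘ^∞⟮X.I, (W.Z M.c0).I⟯ (W.Z M.c0).M,
    Pos X.I (W.Z M.c0).I f univ M.o (W.o M.c0) ∧ ∀ (lam : Type) [Fintype lam] [DecidableEq lam] (N : ML M lam)
      (Λ : Lns W N), ∃ v, Uni X.I N.p (fun x => (ln Λ M.c0 0).p (f x)) v univ :=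
  have s : (W.φ M.c0).source = univ := (W.src _).trans (by simp [Sys.cores, Mark.c0])
  ⟨IsLocalDiffeomorph.diffeomorphOfBijective (f := W.φ M.c0) (fun x => Orx52.ldp _ (s.ge trivial))
    ⟨PartialEquiv.injective_of_source_eq_univ _ s, PartialEquiv.surjective_of_target_eq_univ _
      ((W.tgt _).trans (eq_univ_of_forall fun _ _ h => h.elim))⟩, (W.oφ _).symm.mono s.ge,
    fun _ _ _ N Λ => ⟨_, (Λ.iso M.c0 M.c0 0 (Mark.mem_Br_c0
      ⟨fun _ => ⟨le_rfl, zero_le_one⟩, by simp [Sys.Cell]⟩)).toUni.mono s.ge⟩⟩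

end wld

/-- the root word -/
theorem ok_rt (P : Pm Γ) (hc : Pr Γ.cap.2) :
    (rt ⟨0, 1, fun _ => .rod Γ.cap⟩ ⟨fun _ => P.Λ.x, fun _ => P.Λ.x, 0, 0⟩).OK P := by
  have h : (f0 ⟨0, 1, fun _ => .rod Γ.cap⟩ ∅).OK P := ⟨⟨one_pos, rfl, rfl, fun _ _ _ => ⟨hc, hc⟩,
    fun _ _ _ => ⟨rfl, .inl (.refl _)⟩⟩, by simp, by simp, by simp, by simp⟩
  have l : (f0 ⟨0, 1, fun _ => .rod Γ.cap⟩ ∅).LOK P ⟨fun _ => P.Λ.x, fun _ => P.Λ.x, 0, 0⟩ :=
    ⟨⟨rfl, rfl, fun _ _ _ _ _ => rfl, fun _ _ _ _ e => (nomatch e), fun _ _ _ _ => rfl,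
      fun _ _ _ e => (hc.ne_neg e).elim⟩, rfl, rfl, by simp⟩
  refine ⟨h, by simp [rt], by simp [rt], by simp [rt], by simpa [rt] using l, by simp [rt], ?_, by simp [rt],
    by simp [rt], by simp [rt]⟩
  simpa [rt] using (⟨h, l, by simp, by simp, [], trivial, by simp, by simp, by simp, by simp, by simp,
    by simp [Fm.NumC]⟩ : Fm.GC P _ _ ∅)

variable {Y : CM 3} {X : CM 4} {n : Y × ℝ → X} {O : Fm 4 X} {o : Fm 3 Y} {T : Ty Y} {hT : Typ (𝓡 3) T}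
  {C : Cx Γ} {κ : Type} [Fintype κ] [DecidableEq (Option κ)]

theorem ex_of_uni {Z : Mf 4} {η : Z.M → X} (m : Mp Z.I (𝓡 4) univ univ η) {l : Type} [Fintype l] {L : Ln Z.E Z.M l}
    (hL : L.On Z.I univ) {L' : Ln (EE 4) X l} (h' : L'.On (𝓡 4) univ) {v} (h : Uni Z.I (fun z => L'.p (η z)) L.p v univ)
    {a b c} (e : Ex (𝓡 4) univ (L'.F (𝓡 4) - (b + c))) (e' : Ex (𝓡 4) univ (b - a)) :
    Ex Z.I univ (L.F Z.I - pm Z.I (𝓡 4) η (a + c)) :=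
  ((Uni.ex_F isOpen_univ h (h'.pull m) hL).add ((e.add e').pm m)).congr fun z _ => by
    simp only [pm_add, pm_sub, Pi.add_apply, Pi.sub_apply, h'.F_pull isOpen_univ isOpen_univ m (mem_univ z)]
    abel

variable (κ) in
/-- the analysis on closed manifolds -/
def AnH : Prop := ∀ (Z : Mf 4) [CompactSpace Z.M] [ConnectedSpace Z.M] (B : Bk Z.I Z.M (Option κ)),
  2 ≤ Num57.bp B.ok.ori → Eq82.NV B

variable (κ) in
/-- the conclusion -/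
def Out (P : Pm Γ) (G : Tab C.kd κ) (K : LCx C P.Λ) : Prop :=
  0 < Cap57.dgL K ∧ ∀ (lam : Type) [Fintype lam] [DecidableEq lam] (L : LP C G P lam), L.L = K →
    ∀ μ : ℕ → ℤ × ℤ, Tendsto (fun k => (μ k).1 - (μ k).2) atTop atTop → NvStmt L μ NV

theorem nv_gen (hA : AnH κ) (G : Tab C.kd κ) (P : Pm Γ) (e : Fin 8 ↪ κ) (hc : Pr Γ.cap.2)
    (hn : IsOE (IR 3) (𝓡 4) n) (χ : C.X0.M ≃ₘ^∞⟮C.X0.I, 𝓡 4⟯ X) (ρ : (mF C.kd Γ.cap).M ≃ₘ^∞⟮𝓡 3, 𝓡 3⟯ Y)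
    (hχ : ∀ p, χ (C.S.n p) = n (ρ p.1, p.2)) (pχ : Pos C.X0.I (𝓡 4) χ univ C.o0 O)
    (pρ : Pos (𝓡 3) (𝓡 3) ρ univ (oY C.kd Γ.cap) o) (ho : Ori (𝓡 3) o) {u : Y → Circle}
    (hu : ContMDiff (𝓡 3) (𝓡 1) ∞ u) (hC : Cts O n hT o u) {S} (sf : ∀ τ i, SF (C.F τ rfl) (uni_s (fd τ.2)) i (S τ i))
    {a} (ha : ∀ J i j, P.Λ.ok J i j → Uni (𝓡 3) (S _ i).L.p (fun q => (S _ j).L.p (C.g J q)) (a J i j) univ)
    (t : T K3 (fun y => (S Γ.cap P.Λ.x).L.p (ρ.symm y)) 1) :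
    ∃ K : LCx C P.Λ, K.S = S ∧ K.u = a ∧ Out κ P G K := by
  have h := ok_rt P hc
  obtain ⟨ψ, V, oV, pψ, H⟩ := entry (C.rz h.h0.w) fun _ => rfl
  obtain ⟨W, B, hW⟩ := exists_world (M := mrk G h.h0.w Subtype.val fun a => h.ad _ a.2)
    ⟨e, fun a => absurd a.2 (Finset.notMem_empty _)⟩
  obtain ⟨f, pf, hf⟩ := exists_dif W.nm
  have := (mrk G h.h0.w Subtype.val fun a => h.ad _ a.2).con
  have := f.surjective.connectedSpace f.continuous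
  let η := (ψ.trans f).symm.trans χ
  have ld := fun x (_ : x ∈ univ) => (ψ.trans f).isLocalDiffeomorph x
  obtain ⟨u', e', w, ⟨l, _, Lw, w1, rfl, w2⟩, w3, K₀, N₀, hK⟩ := hC _ _ _ _ _ η (bk W.nm (Mark.c0 _) 0)
    ((ok_ov (Lay.F_vol _ _) (W.nm.ori _)).2.trans (SameOn.symm ((Pos.of_comp (f := η) (pχ.congr isOpen_univ
      fun x _ => by simp [η]) (pf.comp (neg_neg C.o0 ▸ pψ.neg) (fun x _ => f.isLocalDiffeomorph x)
        (fun x _ => ψ.isLocalDiffeomorph x) (mapsTo_univ _ _)) (fun x _ => η.isLocalDiffeomorph _) ld).mono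
          fun z _ => (ψ.trans f).surjective z |>.imp fun _ k => ⟨trivial, k⟩))) (hA _ _)
  have hu' : ContMDiff (𝓡 3) (𝓡 1) ∞ u' := by
    rcases e' with rfl | rfl
    exacts [hu, fun y => CSm.inv (hu y)]
  have w0 : (⟨Lw.p, 0⟩ : Ln (EE 4) X l).On (𝓡 4) univ := ⟨w1.sm, w1.prj, w1.tr, Sm.zero, Dg.zero⟩
  obtain ⟨p, b, hb⟩ := exists_small (κ := K3) w0 (by simp)
  have hp := hb.on isOpen_univ w0
  obtain ⟨D, s, hs⟩ := exists_sec (on_comp hp (mpψ χ))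
  have m0 := Sep15.mp_univ (W := univ) (cm_sc0 hn.contMDiff)
  have hS := (sf Γ.cap P.Λ.x).ok.ln
  obtain ⟨c, hc'⟩ := hT.uni (hS.pull (Sep15.mp_univ ρ.symm.contMDiff)) (w1.pull m0) t w2
  obtain ⟨m, hm⟩ := exists_uni_cyl' (on_comp hp (Sep15.mp_univ hn.contMDiff)) (1 / 4) (hc'.trans (hb.comp m0))
  refine ⟨⟨S, sf, a, ha, _, hs, _, (hm.symm.comp (f := Prod.map ρ id) ⟨fun _ _ => (ρ.contMDiff.prodMap contMDiff_id) _,
    fun z k => (abs_lt.2 k).le⟩).congr_p (fun z _ => congrArg p (hχ z))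
    fun z _ => by simp [Ln.pull], u' ∘ ρ, fun y => (hu' _).comp y (ρ.contMDiff y)⟩, rfl, rfl, ?_,
    fun lam _ _ L eL μ hμ => ⟨_, _, h, fun _ => rfl, (hμ.eventually_ge_atTop N₀).mono fun k hk =>
      nv_of exl (fun i => (L.spl h.h0 (h.l0 i) (μ k)).imp fun _ _ a => absurd a.2 (Finset.notMem_empty _))
        (Finset.filter_empty _) (Finset.filter_empty _) hW fun Λ => ?_⟩⟩
  · have mρ : Mp (𝓡 3) (𝓡 3) univ univ ρ := Sep15.mp_univ ρ.contMDiff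
    have cθ : Cl (𝓡 3) 1 univ (ang (𝓡 3) (u' ∘ ρ)) := cl_ang fun y _ => (hu' _).comp y (ρ.contMDiff y)
    have k := (w1.pull m0).pull mρ
    rw [integ_map rfl ho (Orx52.ori_oF _ _) ρ.contMDiff ρ.injective (SameOn.symm pρ)
      (fun x hx => (hx (ρ.surjective x)).elim), pm_mul] at w3
    refine div_pos (w3.trans_eq ((integ_congr fun y => ?_).trans (Cs.ip_coh ⟨cθ, .of_compactSpace _, subset_univ _⟩
      (Orx52.ori_oF _ _) (k.cl_F isOpen_univ).sm (hS.cl_F isOpen_univ).sm (Uni.ex_F isOpen_univ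
        ((hc'.comp mρ).congr_p (fun y _ => by simp [Ln.pull]) fun _ _ => rfl) hS k)))) (by positivity)
    rw [Pi.mul_apply, Pi.mul_apply, pm_ang (hu' _) (ρ.contMDiff.mdifferentiable ne0 y),
      (w1.pull m0).F_pull isOpen_univ isOpen_univ mρ trivial,
      pm_congr_right (w1.F_pull isOpen_univ isOpen_univ m0 trivial)]
  · obtain ⟨u1, v, h1, h2, h3⟩ := H _ L.L _ lam (L.W h.h0 (h.l0 ⟨_, Finset.mem_singleton_self _⟩) (μ k))
      fun _ => ⟨rfl, rfl⟩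
    rw [← L.p, eL] at h1 h2
    rw [eL] at h3
    obtain ⟨N, hN⟩ := Int.eq_ofNat_of_zero_le (N₀.cast_nonneg.trans hk)
    obtain ⟨v', hv⟩ := hf _ _ Λ
    have e1 : ∀ z, χ.symm (n z) = C.S.n (ρ.symm z.1, z.2) := fun z => χ.symm_apply_eq.2 (by simp [hχ])
    have mχ : Mp (𝓡 4) C.X0.I univ univ χ.symm := Sep15.mp_univ χ.symm.contMDiff
    have hq := on_comp (on_comp (L.N h.h0 (h.l0 ⟨_, Finset.mem_singleton_self _⟩) (μ k)).ok
      (Sep15.mp_univ (W := univ) ψ.contMDiff)) mχ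
    obtain ⟨g, φ, k1, k2⟩ := cls hn hp hq (oV.preimage χ.symm.continuous)
      ((h1.comp ⟨fun x _ => mχ.sm x trivial, fun _ => id⟩).congr_p (fun x _ => by simp) fun _ _ => rfl)
      ((h2.comp (f := Prod.map ρ.symm id) ⟨fun _ _ => (ρ.symm.contMDiff.prodMap contMDiff_id) _,
        fun _ => id⟩).congr_p (fun z _ => by simp [hχ]) fun z _ => by simp only [e1]; rfl) hu' (N := N)
      ⟨fun x hx => let ⟨z, z1, z2⟩ := h3.1 _ hx; ⟨(ρ z.1, z.2), z1, by rw [← hχ, z2, χ.apply_symm_apply]⟩,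
        fun z a b => by simpa [← hN, e1, cp, Prod.map] using h3.2 (ρ.symm z.1, z.2) a (e1 z ▸ b)⟩
    rw [Int.cast_natCast] at k2
    obtain ⟨k3, k5, j, k4⟩ := hK N (by omega) g φ k1 _ _ (ln_on Λ (Mark.c0 _) 0) (ex_of_uni (mpψ η) (ln_on Λ _ 0) hq
      ((hv.comp (Sep15.mp_univ f.symm.contMDiff)).congr_p (fun z _ => by simp [η]; rfl)
        fun z _ => congrArg _ (f.apply_symm_apply z).symm) k2 (Uni.ex_F (L' := ⟨p, 0⟩) isOpen_univ hb w1 hp))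
    exact ⟨j, K₀, k3, div_neg_of_neg_of_pos (neg_neg_of_pos k5) four_pos, k4⟩

open Ext52 Cab39 Sep15 Orx52 in
/-- **BR-NV** -/
theorem nv_cx (hA : AnH κ) (e : Fin 8 ↪ κ) {k : KD} {Φ} (h : H7.Out Q Y o Φ) (ho : Ori (𝓡 3) o)
    {ρ : Fill (cable k).toTube (fd (1, 0)) ≃ₘ^∞⟮𝓡 3, 𝓡 3⟯ Y} (hρ : Pos (𝓡 3) (𝓡 3) ρ univ (oF _ _) o) {x : ℤ}
    (hx : x * x = 1) : ∃ (C₁ C₂ : End Y) (X : CM 4) (_ : ConnectedSpace X) (J : Jo C₁ C₂ X) (O : Fm 4 X)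
      (hO : Ori (𝓡 4) O) (hc : Cy o O (J.i₁ ∘ C₁.j)), Q Y C₁ ∧ Q Y C₂ ∧ ∀ a a' g hg (P : Pm (nm a a')) G S a,
        P.Λ.x = x → (∀ τ i, SF ((cx k (g := g) hg J hρ hO hc).F τ rfl) (uni_s (fd τ.2)) i (S τ i)) →
        (∀ j i i', P.Λ.ok j i i' → Uni (𝓡 3) (S _ i).L.p
          (fun q => (S _ i').L.p ((cx k hg J hρ hO hc).g j q)) (a j i i') univ) →
        ∃ K : LCx (cx k hg J hρ hO hc) P.Λ, K.S = S ∧ K.u = a ∧ Out κ P G K := by
  have c : Pr (1, 0) := pr_of isCoprime_one_right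
  obtain ⟨l, l1, l2⟩ := exists_sline (cable k).toTube (fd (1, 0)) (x * 1)
  have := ρ.toEquiv.nonempty_congr.1 inferInstance
  obtain ⟨C₁, C₂, X, J, O, u, q₁, q₂, hO, hc, hu, -, H⟩ := root h ho (typ_mul (typ_fill ρ.symm) hx)
    (l1.comp (mp_univ (W := univ) ρ.symm.contMDiff)) (by convert l2 using 2; simp)
  have := q₁.2.1
  have := q₂.2.1
  refine ⟨C₁, C₂, X, J.conn, J, O, hO, hc, q₁, q₂, fun a a' g hg P G S b e' sf hb => nv_gen hA G P e c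
    (J.o₁.comp C₁.oe) (.refl (𝓡 4) X _) ρ (fun _ => rfl) (pos_id (I := 𝓡 4).2 (hO.same _)) hρ ho hu H sf hb ?_⟩
  have d := (fd (1, 0)).det
  rw [(fd_p c).1, (fd_p c).2, zero_mul, sub_zero, one_mul] at d
  rw [show x * 1 = (fd (1, 0)).a * P.Λ.x by rw [d, e', mul_comm]]
  convert sf_type (k := cable k) (σ := fd (1, 0)) (sf (true, 1, 0) P.Λ.x) using 2
  exact congrArg _ (ρ.symm_apply_apply _)

end Crest.Agent.X212.Brn93
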